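import Mathlib.MeasureTheory.Function.ConditionalExpectation.PullOut
import Mathlib.MeasureTheory.Function.ConditionalExpectation.Real
import Mathlib.MeasureTheory.Integral.Bochner.Set
import Mathlib.Tactic

/-! P146, block 11-BR-ABS: exclusion of the big root by two times in one law.
Mathlib only.  `a = b*y`, `τ i = T i - 2 al`, `v = v / b^2`, `k` = conditional mean of the
(normalised) fourth cumulant of a hidden row, `Q i = |m_i|^2 / n`. -/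

namespace Vale.Agent.P146.H339.BR

open MeasureTheory

/-! ### real arithmetic -/

lemma step {a τ v ℓ L ξ p r : ℝ} (ha : 0 ≤ a) (hv : 0 ≤ v) (hL : 0 < L)
    (hℓL : ℓ = (1 - ξ) * L) (hξ0 : 0 ≤ ξ) (hξ : ξ ≤ 1 / 2)
    (hp0 : 0 < p) (hp : p * L ≤ 1) (hr0 : 0 < r) (hr : r * ℓ ≤ 1)
    (hrp : (1 - ξ) * r ≤ p) (hreg : 2 * |τ| * ℓ + 3 * v ≤ a * ℓ ^ 2) :
    a * r + τ * r ^ 2 - v * r ^ 3 ≤ a * p + τ * p ^ 2 - v * p ^ 3 + 4 * a * ξ / L := by
  have hℓ : 0 < ℓ := by rw [hℓL]; nlinarith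
  have hℓ' : ℓ ≤ L := by rw [hℓL]; nlinarith
  have hpℓ : p * ℓ ≤ 1 := le_trans (by nlinarith) hp
  have hτ := abs_nonneg τ
  -- the two bounds
  have hsum : (p + r) * ℓ ≤ 2 := by nlinarith
  have hτ2 : 2 * |τ| ≤ a * ℓ := by
    have : (2 * |τ|) * ℓ ≤ (a * ℓ) * ℓ := by nlinarith
    exact le_of_mul_le_mul_right this hℓ
  have hτp : |τ| * (p + r) ≤ a := by
    have h1 : |τ| * (p + r) * 2 ≤ a * ((p + r) * ℓ) := by nlinarith
    nlinarith
  have habs1 : -|τ| ≤ τ := neg_abs_le τ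
  have habs2 : τ ≤ |τ| := le_abs_self τ
  rcases le_total r p with h | h
  · have hbr : 0 ≤ a + τ * (p + r) - v * (p ^ 2 + p * r + r ^ 2) := by
      have e1 : (|τ| * (p + r) + v * (p ^ 2 + p * r + r ^ 2)) * ℓ ^ 2 ≤ 2 * |τ| * ℓ + 3 * v := by
        have f1 : |τ| * (p + r) * ℓ ^ 2 ≤ 2 * |τ| * ℓ := by
          have : |τ| * ℓ * ((p + r) * ℓ) ≤ |τ| * ℓ * 2 :=
            mul_le_mul_of_nonneg_left hsum (by positivity)
          nlinarith
        have g1 : (p * ℓ) ^ 2 ≤ 1 := by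
          have : 0 ≤ p * ℓ := by positivity
          nlinarith
        have g2 : (r * ℓ) ^ 2 ≤ 1 := by
          have : 0 ≤ r * ℓ := by positivity
          nlinarith
        have g3 : (p * ℓ) * (r * ℓ) ≤ 1 := by
          have : 0 ≤ p * ℓ := by positivity
          have : 0 ≤ r * ℓ := by positivity
          nlinarith
        have f2 : v * (p ^ 2 + p * r + r ^ 2) * ℓ ^ 2 ≤ 3 * v := by
          have : v * ((p * ℓ) ^ 2 + (p * ℓ) * (r * ℓ) + (r * ℓ) ^ 2) ≤ v * 3 :=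
            mul_le_mul_of_nonneg_left (by linarith) hv
          nlinarith
        nlinarith
      have e2 : (|τ| * (p + r) + v * (p ^ 2 + p * r + r ^ 2)) * ℓ ^ 2 ≤ a * ℓ ^ 2 := e1.trans hreg
      have e3 : |τ| * (p + r) + v * (p ^ 2 + p * r + r ^ 2) ≤ a :=
        le_of_mul_le_mul_right e2 (by positivity)
      nlinarith
    have : 0 ≤ (p - r) * (a + τ * (p + r) - v * (p ^ 2 + p * r + r ^ 2)) :=
      mul_nonneg (by linarith) hbr
    have h4 : 0 ≤ 4 * a * ξ / L := by positivity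
    nlinarith
  · have hbr : a + τ * (p + r) - v * (p ^ 2 + p * r + r ^ 2) ≤ 2 * a := by
      have : τ * (p + r) ≤ |τ| * (p + r) := mul_le_mul_of_nonneg_right habs2 (by positivity)
      have : 0 ≤ v * (p ^ 2 + p * r + r ^ 2) := by positivity
      linarith
    have e1 : (r - p) * (a + τ * (p + r) - v * (p ^ 2 + p * r + r ^ 2)) ≤ (r - p) * (2 * a) :=
      mul_le_mul_of_nonneg_left hbr (by linarith)
    have e2 : r - p ≤ 2 * ξ / L := by
      rw [le_div_iff₀ hL]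
      have h1 : r - p ≤ ξ * r := by nlinarith
      have h2 : r * L ≤ 2 := by
        have : r * ℓ * 2 ≤ 2 := by linarith
        have hh : L ≤ 2 * ℓ := by rw [hℓL]; nlinarith
        nlinarith
      calc (r - p) * L ≤ (ξ * r) * L := mul_le_mul_of_nonneg_right h1 hL.le
        _ = ξ * (r * L) := by ring
        _ ≤ ξ * 2 := mul_le_mul_of_nonneg_left h2 hξ0
        _ = 2 * ξ := by ring
    have e3 : (r - p) * (2 * a) ≤ 4 * a * ξ / L := by
      calc (r - p) * (2 * a) ≤ (2 * ξ / L) * (2 * a) :=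
            mul_le_mul_of_nonneg_right e2 (by linarith)
        _ = 4 * a * ξ / L := by ring
    nlinarith

/-- The pointwise form: one inequality of the tested row equation at each time. -/
lemma point {a τ1 τ2 v1 v2 L ξ η U q1 q2 k1 k2 : ℝ} (ha : 0 ≤ a) (hv : 0 ≤ v2) (hL : 0 < L)
    (hξ0 : 0 ≤ ξ) (hξ : ξ ≤ 1 / 2) (hη : 0 ≤ η) (hτ : τ1 ≤ τ2) (hv12 : v2 ≤ v1)
    (hreg : 2 * |τ2| * ((1 - ξ) * L) + 3 * v2 ≤ a * ((1 - ξ) * L) ^ 2)
    (hq2 : L ≤ q2) (h12 : (1 - ξ) * q2 ≤ q1) (hU : q1 ≤ U)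
    (h1 : k1 ^ 2 * q1 ≤ a + τ1 / q1 - v1 / q1 ^ 2 + η)
    (h2 : a + τ2 / q2 - v2 / q2 ^ 2 - η ≤ k2 ^ 2 * q2) :
    k1 ^ 2 + ((τ2 - τ1) / U ^ 2 + (v1 - v2) / U ^ 3 - 4 * a * ξ / L - 3 * η / L) ≤ k2 ^ 2 := by
  have hq2' : 0 < q2 := lt_of_lt_of_le hL hq2
  have hq1 : 0 < q1 := by nlinarith
  have hU0 : 0 < U := lt_of_lt_of_le hq1 hU
  set r : ℝ := 1 / q1 with hr
  set p : ℝ := 1 / q2 with hp
  have hr0 : 0 < r := by positivity
  have hp0 : 0 < p := by positivity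
  have hrq : r * q1 = 1 := by rw [hr]; field_simp
  have hpq : p * q2 = 1 := by rw [hp]; field_simp
  have hpL : p * L ≤ 1 := by
    exact le_of_le_of_eq (mul_le_mul_of_nonneg_left hq2 hp0.le) hpq
  have hrℓ : r * ((1 - ξ) * L) ≤ 1 := by
    have : (1 - ξ) * L ≤ q1 :=
      le_trans (mul_le_mul_of_nonneg_left hq2 (by linarith)) h12
    exact le_of_le_of_eq (mul_le_mul_of_nonneg_left this hr0.le) hrq
  have hrp : (1 - ξ) * r ≤ p := by
    have : (1 - ξ) * r * q2 ≤ 1 := by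
      calc (1 - ξ) * r * q2 = r * ((1 - ξ) * q2) := by ring
        _ ≤ r * q1 := mul_le_mul_of_nonneg_left h12 hr0.le
        _ = 1 := hrq
    have h' : (1 - ξ) * r * q2 ≤ p * q2 := by rw [hpq]; exact this
    exact le_of_mul_le_mul_right h' hq2'
  have hst := step (τ := τ2) ha hv hL rfl hξ0 hξ hp0 hpL hr0 hrℓ hrp hreg
  -- convert the equations
  have g1 : k1 ^ 2 ≤ a * r + τ1 * r ^ 2 - v1 * r ^ 3 + η * r := by
    have : k1 ^ 2 * q1 * r ≤ (a + τ1 / q1 - v1 / q1 ^ 2 + η) * r :=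
      mul_le_mul_of_nonneg_right h1 hr0.le
    have e1 : k1 ^ 2 * q1 * r = k1 ^ 2 := by rw [mul_assoc, mul_comm q1 r, hrq, mul_one]
    have e2 : τ1 / q1 = τ1 * r := by rw [hr]; ring
    have e3 : v1 / q1 ^ 2 = v1 * r ^ 2 := by rw [hr]; ring
    rw [e1, e2, e3] at this
    calc k1 ^ 2 ≤ (a + τ1 * r - v1 * r ^ 2 + η) * r := this
      _ = a * r + τ1 * r ^ 2 - v1 * r ^ 3 + η * r := by ring
  have g2 : a * p + τ2 * p ^ 2 - v2 * p ^ 3 - η * p ≤ k2 ^ 2 := by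
    have : (a + τ2 / q2 - v2 / q2 ^ 2 - η) * p ≤ k2 ^ 2 * q2 * p :=
      mul_le_mul_of_nonneg_right h2 hp0.le
    have e1 : k2 ^ 2 * q2 * p = k2 ^ 2 := by rw [mul_assoc, mul_comm q2 p, hpq, mul_one]
    have e2 : τ2 / q2 = τ2 * p := by rw [hp]; ring
    have e3 : v2 / q2 ^ 2 = v2 * p ^ 2 := by rw [hp]; ring
    rw [e1, e2, e3] at this
    calc a * p + τ2 * p ^ 2 - v2 * p ^ 3 - η * p = (a + τ2 * p - v2 * p ^ 2 - η) * p := by ring
      _ ≤ k2 ^ 2 := this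
  have hrU : 1 / U ^ 2 ≤ r ^ 2 := by
    rw [hr, div_pow, one_pow]
    exact one_div_le_one_div_of_le (by positivity) (pow_le_pow_left₀ hq1.le hU 2)
  have hrU3 : 1 / U ^ 3 ≤ r ^ 3 := by
    rw [hr, div_pow, one_pow]
    exact one_div_le_one_div_of_le (by positivity) (pow_le_pow_left₀ hq1.le hU 3)
  have g3 : (τ2 - τ1) / U ^ 2 ≤ (τ2 - τ1) * r ^ 2 := by
    have := mul_le_mul_of_nonneg_left hrU (sub_nonneg.2 hτ)
    calc (τ2 - τ1) / U ^ 2 = (τ2 - τ1) * (1 / U ^ 2) := by ring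
      _ ≤ _ := this
  have g3' : (v1 - v2) / U ^ 3 ≤ (v1 - v2) * r ^ 3 := by
    have := mul_le_mul_of_nonneg_left hrU3 (sub_nonneg.2 hv12)
    calc (v1 - v2) / U ^ 3 = (v1 - v2) * (1 / U ^ 3) := by ring
      _ ≤ _ := this
  have g4 : η * r ≤ 2 * η / L := by
    rw [le_div_iff₀ hL]
    have hrL : r * L ≤ 2 := by
      have h1 : (1 - ξ) * (r * L) ≤ 1 := by linarith
      have h2 : 0 ≤ r * L := by positivity
      have h3 : (1 / 2) * (r * L) ≤ (1 - ξ) * (r * L) :=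
        mul_le_mul_of_nonneg_right (by linarith) h2
      linarith
    calc η * r * L = η * (r * L) := by ring
      _ ≤ η * 2 := mul_le_mul_of_nonneg_left hrL hη
      _ = 2 * η := by ring
  have g5 : η * p ≤ η / L := by
    rw [le_div_iff₀ hL]
    calc η * p * L = η * (p * L) := by ring
      _ ≤ η * 1 := mul_le_mul_of_nonneg_left hpL hη
      _ = η := by ring
  have g6 : 3 * η / L = 2 * η / L + η / L := by ring
  have g7 : (τ2 - τ1) * r ^ 2 = τ2 * r ^ 2 - τ1 * r ^ 2 := by ring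
  have g8 : (v1 - v2) * r ^ 3 = v1 * r ^ 3 - v2 * r ^ 3 := by ring
  rw [g6]
  linarith

/-! ### measure theory -/

variable {Ω : Type*} {m0 : MeasurableSpace Ω} {P : Measure Ω}

/-- **Gap lemma.**  If `∫_B k2² ≤ ∫_B k1²` (second moment of a martingale increases) while
`k1² + g ≤ k2²` on `B` off an exceptional set `E`, then `B` is small. -/
theorem gap [IsFiniteMeasure P] {k1 k2 : Ω → ℝ} {B E : Set Ω} {C g : ℝ}
    (hB : MeasurableSet B) (hE : MeasurableSet E) (hg : 0 < g)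
    (hk1m : AEStronglyMeasurable k1 P) (hk2m : AEStronglyMeasurable k2 P)
    (hk1 : ∀ᵐ ω ∂P, |k1 ω| ≤ C) (hk2 : ∀ᵐ ω ∂P, |k2 ω| ≤ C)
    (hmono : ∫ ω in B, k2 ω ^ 2 ∂P ≤ ∫ ω in B, k1 ω ^ 2 ∂P)
    (hgap : ∀ᵐ ω ∂P, ω ∈ B → ω ∉ E → k1 ω ^ 2 + g ≤ k2 ω ^ 2) :
    P.real B ≤ (1 + C ^ 2 / g) * P.real E := by
  have hi1 : Integrable (fun ω => k1 ω ^ 2) P := by
    refine Integrable.of_bound (C := C ^ 2) (hk1m.pow 2) ?_
    filter_upwards [hk1] with ω hω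
    rw [Real.norm_eq_abs, abs_pow]
    exact pow_le_pow_left₀ (abs_nonneg _) hω 2
  have hi2 : Integrable (fun ω => k2 ω ^ 2) P := by
    refine Integrable.of_bound (C := C ^ 2) (hk2m.pow 2) ?_
    filter_upwards [hk2] with ω hω
    rw [Real.norm_eq_abs, abs_pow]
    exact pow_le_pow_left₀ (abs_nonneg _) hω 2
  -- pointwise: 1_B (k1² + g) ≤ 1_B k2² + 1_E (C² + g)
  have hpt : ∀ᵐ ω ∂P, B.indicator (fun ω => k1 ω ^ 2) ω + B.indicator (fun _ => g) ω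
      ≤ B.indicator (fun ω => k2 ω ^ 2) ω + E.indicator (fun _ => C ^ 2 + g) ω := by
    filter_upwards [hgap, hk1] with ω hω h1
    have hsq : k1 ω ^ 2 ≤ C ^ 2 := by
      rw [← sq_abs]; exact pow_le_pow_left₀ (abs_nonneg _) h1 2
    by_cases hb : ω ∈ B
    · by_cases he : ω ∈ E
      · simp only [Set.indicator_of_mem hb, Set.indicator_of_mem he]
        nlinarith [sq_nonneg (k2 ω)]
      · simp only [Set.indicator_of_mem hb, Set.indicator_of_notMem he]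
        linarith [hω hb he]
    · simp only [Set.indicator_of_notMem hb]
      have : 0 ≤ E.indicator (fun _ => C ^ 2 + g) ω :=
        Set.indicator_nonneg (fun _ _ => by positivity) ω
      linarith
  have hint := integral_mono_ae (μ := P)
    (f := fun ω => B.indicator (fun ω => k1 ω ^ 2) ω + B.indicator (fun _ => g) ω)
    (g := fun ω => B.indicator (fun ω => k2 ω ^ 2) ω + E.indicator (fun _ => C ^ 2 + g) ω)
    ((hi1.indicator hB).add ((integrable_const g).indicator hB))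
    ((hi2.indicator hB).add ((integrable_const (C ^ 2 + g)).indicator hE)) hpt
  rw [integral_add (hi1.indicator hB) ((integrable_const g).indicator hB),
    integral_add (hi2.indicator hB) ((integrable_const (C ^ 2 + g)).indicator hE),
    integral_indicator hB, integral_indicator hB, integral_indicator hB,
    integral_indicator hE, setIntegral_const, setIntegral_const, smul_eq_mul, smul_eq_mul] at hint
  have h1 : P.real B * g ≤ P.real E * (C ^ 2 + g) := by linarith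
  have h2 : P.real B ≤ P.real E * (C ^ 2 + g) / g := by
    rw [le_div_iff₀ hg]; exact h1
  calc P.real B ≤ P.real E * (C ^ 2 + g) / g := h2
    _ = (1 + C ^ 2 / g) * P.real E := by field_simp; ring

/-- The second moment of a bounded martingale increases (on every `m2`-event). -/
theorem mart_sq {m2 m0 : MeasurableSpace Ω} {P : Measure[m0] Ω} [IsFiniteMeasure P]
    (hm : m2 ≤ m0) {k1 k2 : Ω → ℝ} {C : ℝ} (hk1m : AEStronglyMeasurable[m0] k1 P) (hk1 : ∀ᵐ ω ∂P, |k1 ω| ≤ C)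
    (hk2 : k2 =ᵐ[P] P[k1|m2]) {B : Set Ω} (hB : MeasurableSet[m2] B) :
    ∫ ω in B, k2 ω ^ 2 ∂P ≤ ∫ ω in B, k1 ω ^ 2 ∂P := by
  have hi1 : Integrable k1 P := Integrable.of_bound (C := C) hk1m
    (by filter_upwards [hk1] with ω h; rwa [Real.norm_eq_abs])
  have hC : ∀ᵐ ω ∂P, |(P[k1|m2]) ω| ≤ C := by
    rcases le_or_gt 0 C with h0 | h0
    · exact ae_bdd_abs_condExp_of_ae_bdd_abs (m := m2) (f := k1) (μ := P) hk1
    · filter_upwards [hk1] with ω h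
      exact absurd (le_trans (abs_nonneg _) h) (not_le.2 h0)
  set c := P[k1|m2] with hc
  have hcm : AEStronglyMeasurable[m0] c P :=
    (integrable_condExp (m := m2) (f := k1) (μ := P)).aestronglyMeasurable
  have hic2 : Integrable (fun ω => c ω ^ 2) P := by
    refine Integrable.of_bound (C := C ^ 2) (hcm.pow 2) ?_
    filter_upwards [hC] with ω hω
    rw [Real.norm_eq_abs, abs_pow]
    exact pow_le_pow_left₀ (abs_nonneg _) hω 2
  have hi12 : Integrable (fun ω => k1 ω ^ 2) P := by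
    refine Integrable.of_bound (C := C ^ 2) (hk1m.pow 2) ?_
    filter_upwards [hk1] with ω hω
    rw [Real.norm_eq_abs, abs_pow]
    exact pow_le_pow_left₀ (abs_nonneg _) hω 2
  have hck : Integrable (c * k1) P := by
    refine Integrable.of_bound (C := C * C) (hcm.mul hk1m) ?_
    filter_upwards [hC, hk1] with ω h1 h2
    rw [Pi.mul_apply, norm_mul, Real.norm_eq_abs, Real.norm_eq_abs]
    exact mul_le_mul h1 h2 (abs_nonneg _) (le_trans (abs_nonneg _) h1)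
  have hpull : P[c * k1|m2] =ᵐ[P] c * P[k1|m2] :=
    condExp_mul_of_stronglyMeasurable_left stronglyMeasurable_condExp hck hi1
  have e1 : ∫ ω in B, k2 ω ^ 2 ∂P = ∫ ω in B, c ω ^ 2 ∂P :=
    setIntegral_congr_ae (hm B hB) (by filter_upwards [hk2] with ω h _; rw [h])
  have e2 : ∫ ω in B, c ω ^ 2 ∂P = ∫ ω in B, (c * k1) ω ∂P := by
    rw [← setIntegral_condExp hm hck hB]
    refine setIntegral_congr_ae (hm B hB) ?_
    filter_upwards [hpull] with ω h _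
    rw [h, Pi.mul_apply, sq]
  have e3 : ∫ ω in B, (c * k1) ω ∂P ≤ ∫ ω in B, (c ω ^ 2 + k1 ω ^ 2) / 2 ∂P := by
    refine setIntegral_mono hck.integrableOn ((hic2.add hi12).div_const 2).integrableOn ?_
    intro ω
    simp only [Pi.mul_apply]
    nlinarith [sq_nonneg (c ω - k1 ω)]
  have e4 : ∫ ω in B, (c ω ^ 2 + k1 ω ^ 2) / 2 ∂P
      = (∫ ω in B, c ω ^ 2 ∂P + ∫ ω in B, k1 ω ^ 2 ∂P) / 2 := by
    rw [integral_div, integral_add hic2.integrableOn hi12.integrableOn]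
  rw [e1]
  linarith

/-- **Exclusion of the big root, probability form.**  `k` bounded, its second moment on the event
`{L ≤ Q2}` is larger at time `1` (later `F_1`) than at time `2`; the two one-sided row equations
hold off small events; `Q1 ≥ (1-ξ) Q2` off a small event; `Q1 ≤ U` off a small event. -/
theorem big_root [IsFiniteMeasure P] {k1 k2 Q1 Q2 : Ω → ℝ}
    {a τ1 τ2 v1 v2 L ξ η U C g p1 p2 p3 p4 : ℝ}
    (ha : 0 ≤ a) (hv : 0 ≤ v2) (hL : 0 < L) (hξ0 : 0 ≤ ξ) (hξ : ξ ≤ 1 / 2) (hη : 0 ≤ η)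
    (hτ : τ1 ≤ τ2) (hv12 : v2 ≤ v1)
    (hreg : 2 * |τ2| * ((1 - ξ) * L) + 3 * v2 ≤ a * ((1 - ξ) * L) ^ 2)
    (hg : 0 < g)
    (hgap : g ≤ (τ2 - τ1) / U ^ 2 + (v1 - v2) / U ^ 3 - 4 * a * ξ / L - 3 * η / L)
    (hk1m : Measurable k1) (hk2m : Measurable k2) (hQ1m : Measurable Q1) (hQ2m : Measurable Q2)
    (hk1 : ∀ᵐ ω ∂P, |k1 ω| ≤ C) (hk2 : ∀ᵐ ω ∂P, |k2 ω| ≤ C)
    (hmono : ∫ ω in {ω | L ≤ Q2 ω}, k2 ω ^ 2 ∂P ≤ ∫ ω in {ω | L ≤ Q2 ω}, k1 ω ^ 2 ∂P)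
    (h12 : P.real {ω | L ≤ Q2 ω ∧ Q1 ω < (1 - ξ) * Q2 ω} ≤ p1)
    (hU : P.real {ω | U < Q1 ω} ≤ p2)
    (hE1 : P.real {ω | (1 - ξ) * L ≤ Q1 ω ∧
      a + τ1 / Q1 ω - v1 / Q1 ω ^ 2 + η < k1 ω ^ 2 * Q1 ω} ≤ p3)
    (hE2 : P.real {ω | L ≤ Q2 ω ∧
      k2 ω ^ 2 * Q2 ω < a + τ2 / Q2 ω - v2 / Q2 ω ^ 2 - η} ≤ p4) :
    P.real {ω | L ≤ Q2 ω} ≤ (1 + C ^ 2 / g) * (p1 + p2 + p3 + p4) := by
  set E1 := {ω | L ≤ Q2 ω ∧ Q1 ω < (1 - ξ) * Q2 ω} with hE1d
  set E2 := {ω | U < Q1 ω} with hE2d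
  set E3 := {ω | (1 - ξ) * L ≤ Q1 ω ∧
      a + τ1 / Q1 ω - v1 / Q1 ω ^ 2 + η < k1 ω ^ 2 * Q1 ω} with hE3d
  set E4 := {ω | L ≤ Q2 ω ∧
      k2 ω ^ 2 * Q2 ω < a + τ2 / Q2 ω - v2 / Q2 ω ^ 2 - η} with hE4d
  have m1 : MeasurableSet E1 := by
    apply MeasurableSet.inter
    · exact measurableSet_le measurable_const hQ2m
    · exact measurableSet_lt hQ1m (hQ2m.const_mul _)
  have m2' : MeasurableSet E2 := measurableSet_lt measurable_const hQ1m
  have m3 : MeasurableSet E3 := by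
    apply MeasurableSet.inter
    · exact measurableSet_le measurable_const hQ1m
    · exact measurableSet_lt
        (((measurable_const.add (measurable_const.div hQ1m)).sub
          (measurable_const.div (hQ1m.pow_const 2))).add measurable_const)
        ((hk1m.pow_const 2).mul hQ1m)
  have m4 : MeasurableSet E4 := by
    apply MeasurableSet.inter
    · exact measurableSet_le measurable_const hQ2m
    · exact measurableSet_lt ((hk2m.pow_const 2).mul hQ2m)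
        (((measurable_const.add (measurable_const.div hQ2m)).sub
          (measurable_const.div (hQ2m.pow_const 2))).sub measurable_const)
  have hE : P.real (E1 ∪ E2 ∪ E3 ∪ E4) ≤ p1 + p2 + p3 + p4 := by
    have a1 := measureReal_union_le (μ := P) (E1 ∪ E2 ∪ E3) E4
    have a2 := measureReal_union_le (μ := P) (E1 ∪ E2) E3
    have a3 := measureReal_union_le (μ := P) E1 E2
    linarith
  have hfin := gap (P := P) (k1 := k1) (k2 := k2) (B := {ω | L ≤ Q2 ω})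
    (E := E1 ∪ E2 ∪ E3 ∪ E4) (C := C) (g := g)
    (measurableSet_le measurable_const hQ2m) (((m1.union m2').union m3).union m4) hg
    hk1m.aestronglyMeasurable hk2m.aestronglyMeasurable hk1 hk2 hmono
    (ae_of_all _ (fun ω hb he => by
      simp only [Set.mem_union, not_or] at he
      obtain ⟨⟨⟨he1, he2⟩, he3⟩, he4⟩ := he
      have hb' : L ≤ Q2 ω := hb
      have c1 : (1 - ξ) * Q2 ω ≤ Q1 ω := by
        by_contra hcon
        exact he1 ⟨hb', not_le.1 hcon⟩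
      have c2 : Q1 ω ≤ U := by
        by_contra hcon
        exact he2 (not_le.1 hcon)
      have c0 : (1 - ξ) * L ≤ Q1 ω := le_trans (by nlinarith) c1
      have c3 : k1 ω ^ 2 * Q1 ω ≤ a + τ1 / Q1 ω - v1 / Q1 ω ^ 2 + η := by
        by_contra hcon
        exact he3 ⟨c0, not_le.1 hcon⟩
      have c4 : a + τ2 / Q2 ω - v2 / Q2 ω ^ 2 - η ≤ k2 ω ^ 2 * Q2 ω := by
        by_contra hcon
        exact he4 ⟨hb', not_le.1 hcon⟩
      have := point ha hv hL hξ0 hξ hη hτ hv12 hreg hb' c1 c2 c3 c4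
      linarith))
  refine hfin.trans ?_
  exact mul_le_mul_of_nonneg_left hE (by positivity)

/-- Markov: from the L1 form of the (cubic) tested row equation to the probability form, upper
side. -/
lemma markov_up [IsFiniteMeasure P] {k Q : Ω → ℝ} {a τ v ℓ η e : ℝ} (hℓ : 0 < ℓ) (hη : 0 < η)
    (hint : Integrable (fun ω => k ω ^ 2 * Q ω ^ 3 - a * Q ω ^ 2 - τ * Q ω + v) P)
    (he : ∫ ω, |k ω ^ 2 * Q ω ^ 3 - a * Q ω ^ 2 - τ * Q ω + v| ∂P ≤ e) :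
    P.real {ω | ℓ ≤ Q ω ∧
      ¬ |k ω ^ 2 * Q ω - (a + τ / Q ω - v / Q ω ^ 2)| ≤ η} ≤ e / (η * ℓ ^ 2) := by
  have hpos : 0 < η * ℓ ^ 2 := by positivity
  have hsub : {ω | ℓ ≤ Q ω ∧ ¬ |k ω ^ 2 * Q ω - (a + τ / Q ω - v / Q ω ^ 2)| ≤ η}
      ⊆ {ω | η * ℓ ^ 2 ≤ |k ω ^ 2 * Q ω ^ 3 - a * Q ω ^ 2 - τ * Q ω + v|} := by
    rintro ω ⟨h1, h2⟩
    have hQ : 0 < Q ω := lt_of_lt_of_le hℓ h1
    have e1 : k ω ^ 2 * Q ω ^ 3 - a * Q ω ^ 2 - τ * Q ω + v
        = (k ω ^ 2 * Q ω - (a + τ / Q ω - v / Q ω ^ 2)) * Q ω ^ 2 := by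
      field_simp; ring
    show η * ℓ ^ 2 ≤ _
    rw [e1, abs_mul, abs_of_pos (by positivity : (0:ℝ) < Q ω ^ 2)]
    exact mul_le_mul (not_le.1 h2).le (pow_le_pow_left₀ hℓ.le h1 2) (by positivity)
      (abs_nonneg _)
  have hM := mul_meas_ge_le_integral_of_nonneg (μ := P)
    (f := fun ω => |k ω ^ 2 * Q ω ^ 3 - a * Q ω ^ 2 - τ * Q ω + v|)
    (ae_of_all _ fun _ => abs_nonneg _) hint.abs (η * ℓ ^ 2)
  rw [le_div_iff₀ hpos]
  calc P.real _ * (η * ℓ ^ 2) ≤ P.real {ω | η * ℓ ^ 2 ≤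
        |k ω ^ 2 * Q ω ^ 3 - a * Q ω ^ 2 - τ * Q ω + v|} * (η * ℓ ^ 2) :=
        mul_le_mul_of_nonneg_right (measureReal_mono hsub) hpos.le
    _ = (η * ℓ ^ 2) * P.real {ω | η * ℓ ^ 2 ≤
        |k ω ^ 2 * Q ω ^ 3 - a * Q ω ^ 2 - τ * Q ω + v|} := mul_comm _ _
    _ ≤ _ := hM.trans he

/-- **Exclusion of the big root, L1 form.**  The row equation `k² Q³ = a Q² + τ Q - v` in `L1(P)`
at both times, `Q1 ≥ (1-ξ) Q2` and `Q1 ≤ U` off small events. -/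
theorem big_root_L1 [IsFiniteMeasure P] {k1 k2 Q1 Q2 : Ω → ℝ}
    {a τ1 τ2 v1 v2 L ξ η U C g p1 p2 e1 e2 : ℝ}
    (ha : 0 ≤ a) (hv : 0 ≤ v2) (hL : 0 < L) (hξ0 : 0 ≤ ξ) (hξ : ξ ≤ 1 / 2) (hη : 0 < η)
    (hτ : τ1 ≤ τ2) (hv12 : v2 ≤ v1)
    (hreg : 2 * |τ2| * ((1 - ξ) * L) + 3 * v2 ≤ a * ((1 - ξ) * L) ^ 2)
    (hg : 0 < g)
    (hgap : g ≤ (τ2 - τ1) / U ^ 2 + (v1 - v2) / U ^ 3 - 4 * a * ξ / L - 3 * η / L)
    (hk1m : Measurable k1) (hk2m : Measurable k2) (hQ1m : Measurable Q1) (hQ2m : Measurable Q2)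
    (hk1 : ∀ᵐ ω ∂P, |k1 ω| ≤ C) (hk2 : ∀ᵐ ω ∂P, |k2 ω| ≤ C)
    (hmono : ∫ ω in {ω | L ≤ Q2 ω}, k2 ω ^ 2 ∂P ≤ ∫ ω in {ω | L ≤ Q2 ω}, k1 ω ^ 2 ∂P)
    (h12 : P.real {ω | L ≤ Q2 ω ∧ Q1 ω < (1 - ξ) * Q2 ω} ≤ p1)
    (hU : P.real {ω | U < Q1 ω} ≤ p2)
    (hi1 : Integrable (fun ω => k1 ω ^ 2 * Q1 ω ^ 3 - a * Q1 ω ^ 2 - τ1 * Q1 ω + v1) P)
    (hi2 : Integrable (fun ω => k2 ω ^ 2 * Q2 ω ^ 3 - a * Q2 ω ^ 2 - τ2 * Q2 ω + v2) P)
    (hE1 : ∫ ω, |k1 ω ^ 2 * Q1 ω ^ 3 - a * Q1 ω ^ 2 - τ1 * Q1 ω + v1| ∂P ≤ e1)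
    (hE2 : ∫ ω, |k2 ω ^ 2 * Q2 ω ^ 3 - a * Q2 ω ^ 2 - τ2 * Q2 ω + v2| ∂P ≤ e2) :
    P.real {ω | L ≤ Q2 ω} ≤
      (1 + C ^ 2 / g) * (p1 + p2 + e1 / (η * ((1 - ξ) * L) ^ 2) + e2 / (η * L ^ 2)) := by
  have hℓ : 0 < (1 - ξ) * L := mul_pos (by linarith) hL
  have m1 := markov_up (P := P) hℓ hη hi1 hE1
  have m2 := markov_up (P := P) hL hη hi2 hE2
  refine big_root ha hv hL hξ0 hξ hη.le hτ hv12 hreg hg hgap hk1m hk2m hQ1m hQ2m hk1 hk2 hmono
    h12 hU (le_trans (measureReal_mono ?_) m1) (le_trans (measureReal_mono ?_) m2)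
  · rintro ω ⟨h1, h2⟩
    refine ⟨h1, fun h => ?_⟩
    have := (abs_le.1 h).2
    linarith
  · rintro ω ⟨h1, h2⟩
    refine ⟨h1, fun h => ?_⟩
    have := (abs_le.1 h).1
    linarith

/-- From time `2` to every coarser time: `Q3 ≤ E[Q2 | F_3]` (tested on the event `{2L ≤ Q3}`). -/
theorem coarser [IsFiniteMeasure P] {Q2 Q3 : Ω → ℝ} {L e : ℝ} (hL : 0 < L)
    (hQ2m : Measurable Q2) (hQ3m : Measurable Q3) (hQ2 : Integrable Q2 P) (hQ3 : Integrable Q3 P)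
    (hQ20 : ∀ ω, 0 ≤ Q2 ω)
    (hle : ∫ ω in {ω | 2 * L ≤ Q3 ω}, Q3 ω ∂P ≤ ∫ ω in {ω | 2 * L ≤ Q3 ω}, Q2 ω ∂P)
    (he : ∫ ω in {ω | L ≤ Q2 ω}, Q2 ω ∂P ≤ e) :
    P.real {ω | 2 * L ≤ Q3 ω} ≤ e / L := by
  have hA : MeasurableSet {ω | 2 * L ≤ Q3 ω} := measurableSet_le measurable_const hQ3m
  have hB : MeasurableSet {ω | L ≤ Q2 ω} := measurableSet_le measurable_const hQ2m
  have h1 : 2 * L * P.real {ω | 2 * L ≤ Q3 ω} ≤ ∫ ω in {ω | 2 * L ≤ Q3 ω}, Q3 ω ∂P := by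
    have := setIntegral_mono_on (μ := P) (s := {ω | 2 * L ≤ Q3 ω}) (f := fun _ => 2 * L)
      (g := Q3) (integrableOn_const (by finiteness)) hQ3.integrableOn hA (fun ω hω => hω)
    rw [setIntegral_const, smul_eq_mul] at this
    linarith
  have h2 : ∫ ω in {ω | 2 * L ≤ Q3 ω}, Q2 ω ∂P
      ≤ L * P.real {ω | 2 * L ≤ Q3 ω} + ∫ ω in {ω | L ≤ Q2 ω}, Q2 ω ∂P := by
    rw [← integral_indicator hA, ← integral_indicator hB]
    have hc : L * P.real {ω | 2 * L ≤ Q3 ω}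
        = ∫ ω, {ω | 2 * L ≤ Q3 ω}.indicator (fun _ => L) ω ∂P := by
      rw [integral_indicator hA, setIntegral_const, smul_eq_mul, mul_comm]
    rw [hc, ← integral_add ((integrable_const L).indicator hA) (hQ2.indicator hB)]
    refine integral_mono (hQ2.indicator hA)
      (((integrable_const L).indicator hA).add (hQ2.indicator hB)) ?_
    intro ω
    beta_reduce
    by_cases ha : ω ∈ {ω | 2 * L ≤ Q3 ω}
    · rw [Set.indicator_of_mem ha, Set.indicator_of_mem ha]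
      by_cases hb : ω ∈ {ω | L ≤ Q2 ω}
      · rw [Set.indicator_of_mem hb]; linarith
      · rw [Set.indicator_of_notMem hb]
        have : Q2 ω < L := not_le.1 hb
        linarith
    · rw [Set.indicator_of_notMem ha, Set.indicator_of_notMem ha]
      have : 0 ≤ {ω | L ≤ Q2 ω}.indicator Q2 ω := Set.indicator_nonneg (fun _ _ => hQ20 _) ω
      linarith
  rw [le_div_iff₀ hL]
  nlinarith

end Vale.Agent.P146.H339.BR
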