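import Vale.Agent.P146.H487.Regk

/-! P146, block 12b-BRMOD, part (d): from the tested row equation to its `L1` form.
`r = |M| / sqrt n`, `k` = conditional mean of the (bounded) fourth cumulant of a hidden row,
`gq c a τ v r k = c k² r⁶ - a r⁴ - τ r² + v`.  The test function is the smooth sign of `gq`,
evaluated at the clipped statistics, so that its Lipschitz constants are those of the box
`|r| ≤ R`, `|k| ≤ C`. -/

open MeasureTheory

namespace Vale.Agent.P146.H339.Sg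

set_option linter.unusedSectionVars false

open H646 H487

/-! ### the smooth sign -/

/-- smooth sign. -/
noncomputable def sg (δ t : ℝ) : ℝ := t / √(t ^ 2 + δ ^ 2)

lemma sq_pos' {δ : ℝ} (hδ : 0 < δ) (t : ℝ) : 0 < √(t ^ 2 + δ ^ 2) :=
  Real.sqrt_pos.2 (by positivity)

lemma le_sq {δ : ℝ} (hδ : 0 < δ) (t : ℝ) : δ ≤ √(t ^ 2 + δ ^ 2) := by
  rw [← Real.sqrt_sq hδ.le]
  exact Real.sqrt_le_sqrt (by rw [Real.sqrt_sq hδ.le]; nlinarith [sq_nonneg t])

lemma abs_le_sq (δ t : ℝ) : |t| ≤ √(t ^ 2 + δ ^ 2) := by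
  rw [← Real.sqrt_sq_eq_abs]
  exact Real.sqrt_le_sqrt (by nlinarith [sq_nonneg δ])

lemma abs_sg_le {δ : ℝ} (hδ : 0 < δ) (t : ℝ) : |sg δ t| ≤ 1 := by
  unfold sg
  rw [abs_div, abs_of_pos (sq_pos' hδ t), div_le_one (sq_pos' hδ t)]
  exact abs_le_sq δ t

/-- the norm `sqrt (t² + δ²)` is 1-Lipschitz. -/
lemma sqrt_lip {δ : ℝ} (hδ : 0 < δ) (t s : ℝ) :
    |√(t ^ 2 + δ ^ 2) - √(s ^ 2 + δ ^ 2)| ≤ |t - s| := by
  set A := √(t ^ 2 + δ ^ 2) with hA
  set B := √(s ^ 2 + δ ^ 2) with hB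
  have hA0 : 0 < A := sq_pos' hδ t
  have hB0 : 0 < B := sq_pos' hδ s
  have hA2 : A ^ 2 = t ^ 2 + δ ^ 2 := Real.sq_sqrt (by positivity)
  have hB2 : B ^ 2 = s ^ 2 + δ ^ 2 := Real.sq_sqrt (by positivity)
  have h1 : (A - B) * (A + B) = (t - s) * (t + s) := by nlinarith
  have h2 : |t + s| ≤ A + B :=
    (abs_add_le t s).trans (add_le_add (abs_le_sq δ t) (abs_le_sq δ s))
  have h3 : |A - B| * (A + B) = |t - s| * |t + s| := by
    have h5 : |A - B| * |A + B| = |t - s| * |t + s| := by rw [← abs_mul, h1, abs_mul]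
    rwa [abs_of_pos (add_pos hA0 hB0)] at h5
  have h4 : |A - B| * (A + B) ≤ |t - s| * (A + B) := by
    rw [h3]; exact mul_le_mul_of_nonneg_left h2 (abs_nonneg _)
  exact le_of_mul_le_mul_right h4 (add_pos hA0 hB0)

lemma sg_lip {δ : ℝ} (hδ : 0 < δ) (t s : ℝ) : |sg δ t - sg δ s| ≤ 2 / δ * |t - s| := by
  unfold sg
  set A := √(t ^ 2 + δ ^ 2) with hA
  set B := √(s ^ 2 + δ ^ 2) with hB
  have hA0 : 0 < A := sq_pos' hδ t
  have hB0 : 0 < B := sq_pos' hδ s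
  have hAδ : δ ≤ A := le_sq hδ t
  have e : t / A - s / B = (t - s) / A + s / B * ((B - A) / A) := by field_simp; ring
  rw [e]
  refine (abs_add_le _ _).trans ?_
  have h1 : |(t - s) / A| ≤ 1 / δ * |t - s| := by
    rw [abs_div, abs_of_pos hA0, div_eq_mul_inv, mul_comm, ← one_div]
    exact mul_le_mul_of_nonneg_right (one_div_le_one_div_of_le hδ hAδ) (abs_nonneg _)
  have h2 : |s / B| ≤ 1 := by
    rw [abs_div, abs_of_pos hB0, div_le_one hB0]
    exact abs_le_sq δ s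
  have h3 : |(B - A) / A| ≤ 1 / δ * |t - s| := by
    rw [abs_div, abs_of_pos hA0, div_eq_mul_inv, mul_comm, ← one_div]
    have h5 : |B - A| ≤ |t - s| := by rw [abs_sub_comm]; exact sqrt_lip hδ t s
    exact mul_le_mul (one_div_le_one_div_of_le hδ hAδ) h5 (abs_nonneg _) (by positivity)
  have h4 : |s / B * ((B - A) / A)| ≤ 1 / δ * |t - s| := by
    rw [abs_mul]
    calc |s / B| * |(B - A) / A| ≤ 1 * (1 / δ * |t - s|) :=
          mul_le_mul h2 h3 (abs_nonneg _) zero_le_one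
      _ = _ := one_mul _
  calc |(t - s) / A| + |s / B * ((B - A) / A)| ≤ 1 / δ * |t - s| + 1 / δ * |t - s| :=
        add_le_add h1 h4
    _ = 2 / δ * |t - s| := by ring

/-- the smooth sign tests the absolute value up to `δ`. -/
lemma le_sg_mul {δ : ℝ} (hδ : 0 < δ) (t : ℝ) : |t| ≤ δ + sg δ t * t := by
  unfold sg
  set A := √(t ^ 2 + δ ^ 2) with hA
  have hA0 : 0 < A := sq_pos' hδ t
  have hA2 : A ^ 2 = t ^ 2 + δ ^ 2 := Real.sq_sqrt (by positivity)
  have h1 : |t| ≤ A := abs_le_sq δ t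
  have h2 : A ≤ |t| + δ := by
    have : A ≤ √((|t| + δ) ^ 2) := Real.sqrt_le_sqrt (by
      have h0 : 0 ≤ |t| * δ := mul_nonneg (abs_nonneg _) hδ.le
      have h3 : |t| ^ 2 = t ^ 2 := sq_abs t
      nlinarith)
    rwa [Real.sqrt_sq (by positivity)] at this
  have h3 : t / A * t = t ^ 2 / A := by ring
  rw [h3, ← sub_le_iff_le_add', le_div_iff₀ hA0]
  have h5 : |t| ^ 2 = t ^ 2 := sq_abs t
  have h6 : 0 ≤ |t| := abs_nonneg t
  rcases le_or_gt (|t| - δ) 0 with h | h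
  · nlinarith
  · nlinarith

/-! ### clipping -/

/-- clipping at `R`. -/
noncomputable def clip (R t : ℝ) : ℝ := max (-R) (min R t)

lemma abs_clip_le {R : ℝ} (hR : 0 ≤ R) (t : ℝ) : |clip R t| ≤ R := by
  unfold clip
  rw [abs_le]
  exact ⟨le_max_left _ _, max_le (by linarith) (min_le_left _ _)⟩

lemma clip_of_abs_le {R t : ℝ} (h : |t| ≤ R) : clip R t = t := by
  unfold clip
  have := abs_le.1 h
  rw [min_eq_right this.2, max_eq_right this.1]

lemma clip_lip (R t s : ℝ) : |clip R t - clip R s| ≤ |t - s| := by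
  unfold clip
  refine (abs_max_sub_max_le_max _ _ _ _).trans ?_
  rw [sub_self, abs_zero]
  refine max_le (abs_nonneg _) ?_
  refine (abs_min_sub_min_le_max _ _ _ _).trans ?_
  rw [sub_self, abs_zero]
  exact max_le (abs_nonneg _) le_rfl

lemma continuous_clip (R : ℝ) : Continuous (clip R) :=
  continuous_const.max (continuous_const.min continuous_id)

lemma continuous_sg {δ : ℝ} (hδ : 0 < δ) : Continuous (sg δ) := by
  unfold sg
  refine continuous_id.div ?_ fun t => (sq_pos' hδ t).ne'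
  fun_prop

/-! ### the row polynomial -/

/-- `r = sqrt Q`: the row equation is `gq = 0`. -/
def gq (c a τ v r k : ℝ) : ℝ := c * k ^ 2 * r ^ 6 - a * r ^ 4 - τ * r ^ 2 + v

lemma pow_sub_le {R x y : ℝ} (hx : |x| ≤ R) (hy : |y| ≤ R) (n : ℕ) :
    |x ^ (n + 1) - y ^ (n + 1)| ≤ (n + 1) * R ^ n * |x - y| := by
  have hR : 0 ≤ R := (abs_nonneg x).trans hx
  induction n with
  | zero => simp
  | succ n ih =>
    have e : x ^ (n + 1 + 1) - y ^ (n + 1 + 1)
        = x * (x ^ (n + 1) - y ^ (n + 1)) + (x - y) * y ^ (n + 1) := by ring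
    rw [e]
    refine (abs_add_le _ _).trans ?_
    rw [abs_mul, abs_mul, abs_pow]
    have h1 : |x| * |x ^ (n + 1) - y ^ (n + 1)| ≤ R * ((n + 1) * R ^ n * |x - y|) :=
      mul_le_mul hx ih (abs_nonneg _) hR
    have h2 : |x - y| * |y| ^ (n + 1) ≤ |x - y| * R ^ (n + 1) :=
      mul_le_mul_of_nonneg_left (pow_le_pow_left₀ (abs_nonneg _) hy _) (abs_nonneg _)
    calc |x| * |x ^ (n + 1) - y ^ (n + 1)| + |x - y| * |y| ^ (n + 1)
        ≤ R * ((n + 1) * R ^ n * |x - y|) + |x - y| * R ^ (n + 1) := add_le_add h1 h2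
      _ = (((n + 1 : ℕ) : ℝ) + 1) * R ^ (n + 1) * |x - y| := by push_cast; ring

lemma gq_lip {c a τ v R C r k r' k' : ℝ} (hc : 0 ≤ c) (ha : 0 ≤ a) (hr : |r| ≤ R)
    (hr' : |r'| ≤ R) (hk : |k| ≤ C) (hk' : |k'| ≤ C) :
    |gq c a τ v r k - gq c a τ v r' k'|
      ≤ (6 * c * C ^ 2 * R ^ 5 + 4 * a * R ^ 3 + 2 * |τ| * R) * |r - r'|
        + 2 * c * C * R ^ 6 * |k - k'| := by
  have hC : 0 ≤ C := (abs_nonneg k).trans hk
  have hR : 0 ≤ R := (abs_nonneg r).trans hr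
  have h6 := pow_sub_le hr hr' 5
  have h4 := pow_sub_le hr hr' 3
  have h2 := pow_sub_le hr hr' 1
  have hk2 := pow_sub_le hk hk' 1
  norm_num at h6 h4 h2 hk2
  have e : gq c a τ v r k - gq c a τ v r' k'
      = c * k ^ 2 * (r ^ 6 - r' ^ 6) - a * (r ^ 4 - r' ^ 4) - τ * (r ^ 2 - r' ^ 2)
        + c * (k ^ 2 - k' ^ 2) * r' ^ 6 := by unfold gq; ring
  have hkk : k ^ 2 ≤ C ^ 2 := by rw [← sq_abs]; exact pow_le_pow_left₀ (abs_nonneg _) hk 2
  have hr6 : |r' ^ 6| ≤ R ^ 6 := by rw [abs_pow]; exact pow_le_pow_left₀ (abs_nonneg _) hr' 6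
  have a1 : |c * k ^ 2 * (r ^ 6 - r' ^ 6)| ≤ c * C ^ 2 * (6 * R ^ 5 * |r - r'|) := by
    rw [abs_mul, abs_of_nonneg (by positivity : 0 ≤ c * k ^ 2)]
    exact mul_le_mul (mul_le_mul_of_nonneg_left hkk hc) h6 (abs_nonneg _) (by positivity)
  have a2 : |a * (r ^ 4 - r' ^ 4)| ≤ a * (4 * R ^ 3 * |r - r'|) := by
    rw [abs_mul, abs_of_nonneg ha]
    exact mul_le_mul_of_nonneg_left h4 ha
  have a3 : |τ * (r ^ 2 - r' ^ 2)| ≤ |τ| * (2 * R * |r - r'|) := by
    rw [abs_mul]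
    exact mul_le_mul_of_nonneg_left h2 (abs_nonneg _)
  have a4 : |c * (k ^ 2 - k' ^ 2) * r' ^ 6| ≤ c * (2 * C * |k - k'|) * R ^ 6 := by
    rw [abs_mul, abs_mul, abs_of_nonneg hc]
    exact mul_le_mul (mul_le_mul_of_nonneg_left hk2 hc) hr6 (abs_nonneg _) (by positivity)
  rw [e]
  calc |c * k ^ 2 * (r ^ 6 - r' ^ 6) - a * (r ^ 4 - r' ^ 4) - τ * (r ^ 2 - r' ^ 2)
        + c * (k ^ 2 - k' ^ 2) * r' ^ 6|
      ≤ |c * k ^ 2 * (r ^ 6 - r' ^ 6)| + |a * (r ^ 4 - r' ^ 4)| + |τ * (r ^ 2 - r' ^ 2)|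
        + |c * (k ^ 2 - k' ^ 2) * r' ^ 6| := by
        refine (abs_add_le _ _).trans (add_le_add ?_ le_rfl)
        refine (abs_sub _ _).trans (add_le_add ?_ le_rfl)
        exact abs_sub _ _
    _ ≤ c * C ^ 2 * (6 * R ^ 5 * |r - r'|) + a * (4 * R ^ 3 * |r - r'|)
        + |τ| * (2 * R * |r - r'|) + c * (2 * C * |k - k'|) * R ^ 6 := by linarith
    _ = _ := by ring

/-- the test function of the two statistics `x 0 = r`, `x 1 = k`. -/
noncomputable def Gs (c a τ v R C δ : ℝ) (x : Fin 2 → ℝ) : ℝ :=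
  sg δ (gq c a τ v (clip R (x 0)) (clip C (x 1)))

/-- its Lipschitz constants. -/
noncomputable def Lx (c a τ R C δ : ℝ) : Fin 2 → ℝ :=
  ![2 / δ * (6 * c * C ^ 2 * R ^ 5 + 4 * a * R ^ 3 + 2 * |τ| * R), 2 / δ * (2 * c * C * R ^ 6)]

lemma abs_Gs_le {c a τ v R C δ : ℝ} (hδ : 0 < δ) (x : Fin 2 → ℝ) : |Gs c a τ v R C δ x| ≤ 1 :=
  abs_sg_le hδ _

lemma continuous_Gs {c a τ v R C δ : ℝ} (hδ : 0 < δ) : Continuous (Gs c a τ v R C δ) := by
  unfold Gs gq
  have h0 : Continuous fun x : Fin 2 → ℝ => clip R (x 0) :=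
    (continuous_clip R).comp (continuous_apply 0)
  have h1 : Continuous fun x : Fin 2 → ℝ => clip C (x 1) :=
    (continuous_clip C).comp (continuous_apply 1)
  exact (continuous_sg hδ).comp (by fun_prop)

lemma Lx_nonneg {c a τ R C δ : ℝ} (hc : 0 ≤ c) (ha : 0 ≤ a) (hR : 0 ≤ R) (hC : 0 ≤ C)
    (hδ : 0 < δ) (i : Fin 2) : 0 ≤ Lx c a τ R C δ i := by
  fin_cases i
  · show 0 ≤ 2 / δ * (6 * c * C ^ 2 * R ^ 5 + 4 * a * R ^ 3 + 2 * |τ| * R)
    positivity
  · show 0 ≤ 2 / δ * (2 * c * C * R ^ 6)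
    positivity

theorem Gs_lip {c a τ v R C δ : ℝ} (hc : 0 ≤ c) (ha : 0 ≤ a) (hR : 0 ≤ R) (hC : 0 ≤ C)
    (hδ : 0 < δ) (x y : Fin 2 → ℝ) :
    |Gs c a τ v R C δ x - Gs c a τ v R C δ y| ≤ ∑ i, Lx c a τ R C δ i * |x i - y i| := by
  rw [Fin.sum_univ_two]
  refine (sg_lip hδ _ _).trans ?_
  have h := gq_lip (τ := τ) (v := v) hc ha (abs_clip_le hR (x 0)) (abs_clip_le hR (y 0))
    (abs_clip_le hC (x 1)) (abs_clip_le hC (y 1))
  have h0 := clip_lip R (x 0) (y 0)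
  have h1 := clip_lip C (x 1) (y 1)
  have p0 : 0 ≤ 6 * c * C ^ 2 * R ^ 5 + 4 * a * R ^ 3 + 2 * |τ| * R := by positivity
  have p1 : 0 ≤ 2 * c * C * R ^ 6 := by positivity
  have h2 := h.trans (add_le_add (mul_le_mul_of_nonneg_left h0 p0)
    (mul_le_mul_of_nonneg_left h1 p1))
  have h3 := mul_le_mul_of_nonneg_left h2 (by positivity : 0 ≤ 2 / δ)
  refine h3.trans (le_of_eq ?_)
  show _ = 2 / δ * (6 * c * C ^ 2 * R ^ 5 + 4 * a * R ^ 3 + 2 * |τ| * R) * |x 0 - y 0|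
    + 2 / δ * (2 * c * C * R ^ 6) * |x 1 - y 1|
  ring

/-- pointwise: the test function recovers `|gq|` up to `δ` inside the box. -/
theorem abs_gq_le {c a τ v R C δ r k : ℝ} (hδ : 0 < δ) (hr0 : 0 ≤ r) (hk : |k| ≤ C) :
    |gq c a τ v r k| ≤ δ + Gs c a τ v R C δ ![r, k] * gq c a τ v r k
      + 2 * (if R < r then |gq c a τ v r k| else 0) := by
  split_ifs with h
  · have h1 := abs_Gs_le (c := c) (a := a) (τ := τ) (v := v) (R := R) (C := C) hδ ![r, k]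
    have h2 : |Gs c a τ v R C δ ![r, k] * gq c a τ v r k| ≤ |gq c a τ v r k| := by
      rw [abs_mul]
      calc _ ≤ 1 * |gq c a τ v r k| := mul_le_mul_of_nonneg_right h1 (abs_nonneg _)
        _ = _ := one_mul _
    have h3 := (abs_le.1 h2).1
    linarith
  · have e : Gs c a τ v R C δ ![r, k] = sg δ (gq c a τ v r k) := by
      unfold Gs
      have e0 : clip R ((![r, k] : Fin 2 → ℝ) 0) = r :=
        clip_of_abs_le (by rw [abs_of_nonneg]; exacts [not_lt.1 h, hr0])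
      have e1 : clip C ((![r, k] : Fin 2 → ℝ) 1) = k := clip_of_abs_le hk
      rw [e0, e1]
    rw [e]
    have := le_sg_mul hδ (gq c a τ v r k)
    linarith

/-! ### in `ex` form -/

variable {κ : Type*} [Fintype κ] [DecidableEq κ]
variable {μ : κ → Measure ℝ} [∀ e, IsProbabilityMeasure (μ e)]
variable {w : (κ → ℝ) → ℝ}

lemma bm_gq {c a τ v : ℝ} {r k : (κ → ℝ) → ℝ} (hr : BM r) (hk : BM k) :
    BM (fun z => gq c a τ v (r z) (k z)) := by
  have hp : ∀ {f : (κ → ℝ) → ℝ}, BM f → ∀ n : ℕ, BM (fun z => f z ^ n) := by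
    intro f hf n
    induction n with
    | zero => simpa using BM.const 1
    | succ n ih => simpa only [pow_succ] using ih.mul hf
  unfold gq
  exact (((((BM.const c).mul (hp hk 2)).mul (hp hr 6)).sub ((BM.const a).mul (hp hr 4))).sub
    ((BM.const τ).mul (hp hr 2))).add (BM.const v)

lemma bm_Gs {c a τ v R C δ : ℝ} (hδ : 0 < δ) {r k : (κ → ℝ) → ℝ} (hr : BM r) (hk : BM k) :
    BM (fun z => Gs c a τ v R C δ ![r z, k z]) := by
  refine ⟨(continuous_Gs hδ).measurable.comp ?_, 1, fun z => abs_Gs_le hδ _⟩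
  refine measurable_pi_lambda _ fun i => ?_
  fin_cases i
  · exact hr.meas
  · exact hk.meas

lemma bm_abs {f : (κ → ℝ) → ℝ} (h : BM f) : BM (fun z => |f z|) := by
  obtain ⟨B, hB⟩ := h.bd
  exact ⟨continuous_abs.measurable.comp h.meas, B, fun z => by rw [abs_abs]; exact hB z⟩

lemma bm_ite {f g : (κ → ℝ) → ℝ} (hf : BM f) (hg : BM g) (R : ℝ) :
    BM (fun z => if R < f z then g z else 0) := by
  obtain ⟨B, hB⟩ := hg.bd
  refine ⟨Measurable.ite (measurableSet_lt measurable_const hf.meas) hg.meas measurable_const,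
    B, fun z => ?_⟩
  split_ifs
  · exact hB z
  · rw [abs_zero]; exact (abs_nonneg _).trans (hB z)

/-- **the `L1` form from one test function.** -/
theorem l1_of_test (hw : Wt μ w) {c a τ v R C δ : ℝ} (hδ : 0 < δ)
    {r k : (κ → ℝ) → ℝ} (hr : BM r) (hk : BM k) (hr0 : ∀ z, 0 ≤ r z) (hkC : ∀ z, |k z| ≤ C) :
    ex μ w (fun z => |gq c a τ v (r z) (k z)|)
      ≤ δ + ex μ w (fun z => Gs c a τ v R C δ ![r z, k z] * gq c a τ v (r z) (k z))
        + 2 * ex μ w (fun z => if R < r z then |gq c a τ v (r z) (k z)| else 0) := by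
  have b1 : BM (fun z => gq c a τ v (r z) (k z)) := bm_gq hr hk
  have b2 : BM (fun z => Gs c a τ v R C δ ![r z, k z]) := bm_Gs hδ hr hk
  have b3 : BM (fun z => if R < r z then |gq c a τ v (r z) (k z)| else 0) :=
    bm_ite hr (bm_abs b1) R
  have h := ex_mono hw (bm_abs b1)
    (((BM.const δ).add (b2.mul b1)).add ((BM.const 2).mul b3))
    (fun z => abs_gq_le (R := R) hδ (hr0 z) (hkC z))
  rw [ex_add hw ((BM.const δ).add (b2.mul b1)) ((BM.const 2).mul b3),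
    ex_add hw (BM.const δ) (b2.mul b1), ex_const_mul, ex_const hw] at h
  exact h

/-- crude bound of the part outside of the box: `|gq| ≤ B` there. -/
theorem out_le (hw : Wt μ w) {c a τ v R B : ℝ} {r k : (κ → ℝ) → ℝ} (hr : BM r) (hk : BM k)
    (hB : ∀ z, |gq c a τ v (r z) (k z)| ≤ B) :
    ex μ w (fun z => if R < r z then |gq c a τ v (r z) (k z)| else 0)
      ≤ B * ex μ w (fun z => if R < r z then (1 : ℝ) else 0) := by
  rw [← ex_const_mul]
  refine ex_mono hw (bm_ite hr (bm_abs (bm_gq hr hk)) R)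
    ((BM.const B).mul (bm_ite hr (BM.const 1) R)) fun z => ?_
  split_ifs
  · rw [mul_one]; exact hB z
  · simp

end Vale.Agent.P146.H339.Sg
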